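import Vale.Agent.P154.Chk

namespace Vale.Agent.P154

noncomputable def avP (a b c : ℝ) : ℝ := (a ^ 6 + b ^ 6 + c ^ 6) / 3

noncomputable def psiP (a b c : ℝ) : ℝ :=
  (a * b * c * (a ^ 3 + b ^ 3 + c ^ 3) - 101 / 100 * (a ^ 3 * b ^ 3 + b ^ 3 * c ^ 3 + a ^ 3 * c ^ 3)) / 3
    + 1 / 100 * avP a b c

noncomputable def zeP (a b c : ℝ) : ℝ :=
  avP a b c ^ 2 - (a ^ 6 * b ^ 6 + b ^ 6 * c ^ 6 + a ^ 6 * c ^ 6) / 3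

noncomputable def enP (a b c : ℝ) : ℝ :=
  (a ^ 6 * b ^ 6 * c ^ 6 + 2 * avP a b c ^ 3
    - (a ^ 6 * b ^ 6 + b ^ 6 * c ^ 6 + a ^ 6 * c ^ 6) * avP a b c) / 2

noncomputable def cloP (a b c : ℝ) : ℝ :=
  (a * b * c) ^ 5 * (3 * psiP a b c + 1 / 100 * avP a b c)
    + avP a b c * ((a * b * c) ^ 3 * (a ^ 3 * b ^ 3 + b ^ 3 * c ^ 3 + a ^ 3 * c ^ 3) / 6
      + (a ^ 3 + b ^ 3 + c ^ 3) * (a ^ 6 * b ^ 6 + b ^ 6 * c ^ 6 + a ^ 6 * c ^ 6) / 18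
      - 101 / 100 * ((a * b * c) ^ 2 * (a ^ 3 + b ^ 3 + c ^ 3)
          * (a ^ 3 * b ^ 3 + b ^ 3 * c ^ 3 + a ^ 3 * c ^ 3) - 3 * (a * b * c) ^ 5) / 6)

noncomputable def faP (a b c : ℝ) : ℝ :=
  7 / 20 * zeP a b c * avP a b c ^ 3
    - 3 / 20 * (zeP a b c * avP a b c ^ 3 - zeP a b c ^ 2 * avP a b c)
    - (zeP a b c ^ 2 * avP a b c - enP a b c * avP a b c ^ 2)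
    - 3 / 10 * (zeP a b c ^ 2 * avP a b c - zeP a b c * enP a b c)
    - 23 / 4 * psiP a b c * avP a b c ^ 4

noncomputable def fbP (a b c : ℝ) : ℝ :=
  11 / 50 * zeP a b c * avP a b c ^ 3
    - (zeP a b c ^ 2 * avP a b c - zeP a b c * enP a b c)
    - psiP a b c * avP a b c ^ 4

def cloM : List (List ℤ) :=
  [[100, 0, 0, 0, 0, 0, 100, 0, 0, 0, 0, 0, 0, 0, 0, 0],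
   [0, 0, -303, 0, 0, -303, 0, 0, 0, 0, 0, 0, 0, 0, 0, 0],
   [0, 0, 0, 0, 0, 0, 0, 0, 0, 0, 0, 0, 0, 0, 0, 0],
   [100, 0, 0, 400, 0, 0, 400, 0, 0, 100, 0, 0, 0, 0, 0, 0],
   [0, 0, -303, 0, 0, 72, 0, 0, -303, 0, 0, 0, 0, 0, 0, 0],
   [0, 0, 0, 0, 0, 0, 0, 0, 0, 0, 0, 0, 0, 0, 0, 0],
   [100, 0, 0, 0, 0, 0, 6000, 0, 0, 0, 0, 0, 100, 0, 0, 0],
   [0, 0, -303, 0, 0, -6060, 0, 0, -6060, 0, 0, -303, 0, 0, 0, 0],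
   [0, 0, 0, 0, 0, 0, 0, 0, 0, 0, 0, 0, 0, 0, 0, 0],
   [100, 0, 0, 400, 0, 0, 6000, 0, 0, 6000, 0, 0, 400, 0, 0, 100],
   [0, 0, -303, 0, 0, 72, 0, 0, -6060, 0, 0, 72, 0, 0, -303, 0],
   [0, 0, 0, 0, 0, 0, 0, 0, 0, 0, 0, 0, 0, 0, 0, 0],
   [0, 0, 0, 0, 0, 0, 400, 0, 0, 0, 0, 0, 400, 0, 0, 0],
   [0, 0, 0, 0, 0, -303, 0, 0, -303, 0, 0, -303, 0, 0, -303, 0],
   [0, 0, 0, 0, 0, 0, 0, 0, 0, 0, 0, 0, 0, 0, 0, 0],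
   [0, 0, 0, 0, 0, 0, 100, 0, 0, 100, 0, 0, 100, 0, 0, 100]]

theorem clo_check : checkBox 16 (Tr.U Tr.L (Tr.S Tr.L (Tr.S (Tr.S Tr.L Tr.L) Tr.L))) cloM = true := by decide +kernel

set_option maxHeartbeats 1000000 in
theorem clo_box (b c : ℝ) (hb : 0 ≤ b) (hb1 : b ≤ 1) (hc : 0 ≤ c) (hc1 : c ≤ 1) :
    0 ≤ cloP 1 b (b * c) := by
  have h := checkBox_sound _ _ _ clo_check b c hb hb1 hc hc1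
  have e : cloP 1 b (b * c) = b ^ 6 * ev2 cloM b c / 5400 := by
    simp only [cloM, ev2, ev, evG, cloP, psiP, zeP, enP, avP]
    push_cast
    ring
  rw [e]; positivity

def faM : List (List ℤ) :=
  [[117, 0, 0, 0, 0, 0, 0, 0, 0, 0, 0, 0, 0, 0, 0, 0, 0, 0, 0, 0, 0, 0, 0, 0, 0, 0, 0, 0, 0, 0, 0],
   [0, 0, 0, 0, 0, 0, 0, 0, 0, 0, 0, 0, 0, 0, 0, 0, 0, 0, 0, 0, 0, 0, 0, 0, 0, 0, 0, 0, 0, 0, 0],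
   [0, -2300, 0, 0, 0, 0, 0, 0, 0, 0, 0, 0, 0, 0, 0, 0, 0, 0, 0, 0, 0, 0, 0, 0, 0, 0, 0, 0, 0, 0, 0],
   [2323, 0, 0, 2323, 0, 0, 0, 0, 0, 0, 0, 0, 0, 0, 0, 0, 0, 0, 0, 0, 0, 0, 0, 0, 0, 0, 0, 0, 0, 0, 0],
   [0, 0, 0, 0, 0, 0, 0, 0, 0, 0, 0, 0, 0, 0, 0, 0, 0, 0, 0, 0, 0, 0, 0, 0, 0, 0, 0, 0, 0, 0, 0],
   [0, -2300, 0, 0, -2300, 0, 0, 0, 0, 0, 0, 0, 0, 0, 0, 0, 0, 0, 0, 0, 0, 0, 0, 0, 0, 0, 0, 0, 0, 0, 0],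
   [405, 0, 0, 2323, 0, 0, 405, 0, 0, 0, 0, 0, 0, 0, 0, 0, 0, 0, 0, 0, 0, 0, 0, 0, 0, 0, 0, 0, 0, 0, 0],
   [0, 0, 0, 0, 0, 0, 0, 0, 0, 0, 0, 0, 0, 0, 0, 0, 0, 0, 0, 0, 0, 0, 0, 0, 0, 0, 0, 0, 0, 0, 0],
   [0, -9200, 0, 0, 0, 0, 0, -9200, 0, 0, 0, 0, 0, 0, 0, 0, 0, 0, 0, 0, 0, 0, 0, 0, 0, 0, 0, 0, 0, 0, 0],
   [9292, 0, 0, 9292, 0, 0, 9292, 0, 0, 9292, 0, 0, 0, 0, 0, 0, 0, 0, 0, 0, 0, 0, 0, 0, 0, 0, 0, 0, 0, 0, 0],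
   [0, 0, 0, 0, 0, 0, 0, 0, 0, 0, 0, 0, 0, 0, 0, 0, 0, 0, 0, 0, 0, 0, 0, 0, 0, 0, 0, 0, 0, 0, 0],
   [0, -9200, 0, 0, -9200, 0, 0, -9200, 0, 0, -9200, 0, 0, 0, 0, 0, 0, 0, 0, 0, 0, 0, 0, 0, 0, 0, 0, 0, 0, 0, 0],
   [-1890, 0, 0, 9292, 0, 0, 3060, 0, 0, 9292, 0, 0, -1890, 0, 0, 0, 0, 0, 0, 0, 0, 0, 0, 0, 0, 0, 0, 0, 0, 0, 0],
   [0, 0, 0, 0, 0, 0, 0, 0, 0, 0, 0, 0, 0, 0, 0, 0, 0, 0, 0, 0, 0, 0, 0, 0, 0, 0, 0, 0, 0, 0, 0],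
   [0, -13800, 0, 0, 0, 0, 0, -27600, 0, 0, 0, 0, 0, -13800, 0, 0, 0, 0, 0, 0, 0, 0, 0, 0, 0, 0, 0, 0, 0, 0, 0],
   [13938, 0, 0, 13938, 0, 0, 27876, 0, 0, 27876, 0, 0, 13938, 0, 0, 13938, 0, 0, 0, 0, 0, 0, 0, 0, 0, 0, 0, 0, 0, 0, 0],
   [0, 0, 0, 0, 0, 0, 0, 0, 0, 0, 0, 0, 0, 0, 0, 0, 0, 0, 0, 0, 0, 0, 0, 0, 0, 0, 0, 0, 0, 0, 0],
   [0, -13800, 0, 0, -13800, 0, 0, -27600, 0, 0, -27600, 0, 0, -13800, 0, 0, -13800, 0, 0, 0, 0, 0, 0, 0, 0, 0, 0, 0, 0, 0, 0],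
   [-1890, 0, 0, 13938, 0, 0, -2070, 0, 0, 27876, 0, 0, -2070, 0, 0, 13938, 0, 0, -1890, 0, 0, 0, 0, 0, 0, 0, 0, 0, 0, 0, 0],
   [0, 0, 0, 0, 0, 0, 0, 0, 0, 0, 0, 0, 0, 0, 0, 0, 0, 0, 0, 0, 0, 0, 0, 0, 0, 0, 0, 0, 0, 0, 0],
   [0, -9200, 0, 0, 0, 0, 0, -27600, 0, 0, 0, 0, 0, -27600, 0, 0, 0, 0, 0, -9200, 0, 0, 0, 0, 0, 0, 0, 0, 0, 0, 0],
   [9292, 0, 0, 9292, 0, 0, 27876, 0, 0, 27876, 0, 0, 27876, 0, 0, 27876, 0, 0, 9292, 0, 0, 9292, 0, 0, 0, 0, 0, 0, 0, 0, 0],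
   [0, 0, 0, 0, 0, 0, 0, 0, 0, 0, 0, 0, 0, 0, 0, 0, 0, 0, 0, 0, 0, 0, 0, 0, 0, 0, 0, 0, 0, 0, 0],
   [0, -9200, 0, 0, -9200, 0, 0, -27600, 0, 0, -27600, 0, 0, -27600, 0, 0, -27600, 0, 0, -9200, 0, 0, -9200, 0, 0, 0, 0, 0, 0, 0, 0],
   [405, 0, 0, 9292, 0, 0, 3060, 0, 0, 27876, 0, 0, -2070, 0, 0, 27876, 0, 0, 3060, 0, 0, 9292, 0, 0, 405, 0, 0, 0, 0, 0, 0],
   [0, 0, 0, 0, 0, 0, 0, 0, 0, 0, 0, 0, 0, 0, 0, 0, 0, 0, 0, 0, 0, 0, 0, 0, 0, 0, 0, 0, 0, 0, 0],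
   [0, -2300, 0, 0, 0, 0, 0, -9200, 0, 0, 0, 0, 0, -13800, 0, 0, 0, 0, 0, -9200, 0, 0, 0, 0, 0, -2300, 0, 0, 0, 0, 0],
   [2323, 0, 0, 2323, 0, 0, 9292, 0, 0, 9292, 0, 0, 13938, 0, 0, 13938, 0, 0, 9292, 0, 0, 9292, 0, 0, 2323, 0, 0, 2323, 0, 0, 0],
   [0, 0, 0, 0, 0, 0, 0, 0, 0, 0, 0, 0, 0, 0, 0, 0, 0, 0, 0, 0, 0, 0, 0, 0, 0, 0, 0, 0, 0, 0, 0],
   [0, -2300, 0, 0, -2300, 0, 0, -9200, 0, 0, -9200, 0, 0, -13800, 0, 0, -13800, 0, 0, -9200, 0, 0, -9200, 0, 0, -2300, 0, 0, -2300, 0, 0],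
   [117, 0, 0, 2323, 0, 0, 405, 0, 0, 9292, 0, 0, -1890, 0, 0, 13938, 0, 0, -1890, 0, 0, 9292, 0, 0, 405, 0, 0, 2323, 0, 0, 117]]

theorem fa_check : checkBox 31 (Tr.U Tr.L (Tr.S Tr.L Tr.L)) faM = true := by decide +kernel

set_option maxHeartbeats 1000000 in
theorem fa_box (b c : ℝ) (hb : 0 ≤ b) (hb1 : b ≤ 1) (hc : 0 ≤ c) (hc1 : c ≤ 1) :
    0 ≤ faP 1 b (b * c) := by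
  have h := checkBox_sound _ _ _ fa_check b c hb hb1 hc hc1
  have e : faP 1 b (b * c) = b ^ 0 * ev2 faM b c / 97200 := by
    simp only [faM, ev2, ev, evG, faP, psiP, zeP, enP, avP]
    push_cast
    ring
  rw [e]; positivity

def fbM : List (List ℤ) :=
  [[21, 0, 0, 0, 0, 0, 0, 0, 0, 0, 0, 0, 0, 0, 0, 0, 0, 0, 0, 0, 0, 0, 0, 0, 0, 0, 0, 0, 0, 0, 0],
   [0, 0, 0, 0, 0, 0, 0, 0, 0, 0, 0, 0, 0, 0, 0, 0, 0, 0, 0, 0, 0, 0, 0, 0, 0, 0, 0, 0, 0, 0, 0],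
   [0, -100, 0, 0, 0, 0, 0, 0, 0, 0, 0, 0, 0, 0, 0, 0, 0, 0, 0, 0, 0, 0, 0, 0, 0, 0, 0, 0, 0, 0, 0],
   [101, 0, 0, 101, 0, 0, 0, 0, 0, 0, 0, 0, 0, 0, 0, 0, 0, 0, 0, 0, 0, 0, 0, 0, 0, 0, 0, 0, 0, 0, 0],
   [0, 0, 0, 0, 0, 0, 0, 0, 0, 0, 0, 0, 0, 0, 0, 0, 0, 0, 0, 0, 0, 0, 0, 0, 0, 0, 0, 0, 0, 0, 0],
   [0, -100, 0, 0, -100, 0, 0, 0, 0, 0, 0, 0, 0, 0, 0, 0, 0, 0, 0, 0, 0, 0, 0, 0, 0, 0, 0, 0, 0, 0, 0],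
   [-111, 0, 0, 101, 0, 0, -111, 0, 0, 0, 0, 0, 0, 0, 0, 0, 0, 0, 0, 0, 0, 0, 0, 0, 0, 0, 0, 0, 0, 0, 0],
   [0, 0, 0, 0, 0, 0, 0, 0, 0, 0, 0, 0, 0, 0, 0, 0, 0, 0, 0, 0, 0, 0, 0, 0, 0, 0, 0, 0, 0, 0, 0],
   [0, -400, 0, 0, 0, 0, 0, -400, 0, 0, 0, 0, 0, 0, 0, 0, 0, 0, 0, 0, 0, 0, 0, 0, 0, 0, 0, 0, 0, 0, 0],
   [404, 0, 0, 404, 0, 0, 404, 0, 0, 404, 0, 0, 0, 0, 0, 0, 0, 0, 0, 0, 0, 0, 0, 0, 0, 0, 0, 0, 0, 0, 0],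
   [0, 0, 0, 0, 0, 0, 0, 0, 0, 0, 0, 0, 0, 0, 0, 0, 0, 0, 0, 0, 0, 0, 0, 0, 0, 0, 0, 0, 0, 0, 0],
   [0, -400, 0, 0, -400, 0, 0, -400, 0, 0, -400, 0, 0, 0, 0, 0, 0, 0, 0, 0, 0, 0, 0, 0, 0, 0, 0, 0, 0, 0, 0],
   [12, 0, 0, 404, 0, 0, 1158, 0, 0, 404, 0, 0, 12, 0, 0, 0, 0, 0, 0, 0, 0, 0, 0, 0, 0, 0, 0, 0, 0, 0, 0],
   [0, 0, 0, 0, 0, 0, 0, 0, 0, 0, 0, 0, 0, 0, 0, 0, 0, 0, 0, 0, 0, 0, 0, 0, 0, 0, 0, 0, 0, 0, 0],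
   [0, -600, 0, 0, 0, 0, 0, -1200, 0, 0, 0, 0, 0, -600, 0, 0, 0, 0, 0, 0, 0, 0, 0, 0, 0, 0, 0, 0, 0, 0, 0],
   [606, 0, 0, 606, 0, 0, 1212, 0, 0, 1212, 0, 0, 606, 0, 0, 606, 0, 0, 0, 0, 0, 0, 0, 0, 0, 0, 0, 0, 0, 0, 0],
   [0, 0, 0, 0, 0, 0, 0, 0, 0, 0, 0, 0, 0, 0, 0, 0, 0, 0, 0, 0, 0, 0, 0, 0, 0, 0, 0, 0, 0, 0, 0],
   [0, -600, 0, 0, -600, 0, 0, -1200, 0, 0, -1200, 0, 0, -600, 0, 0, -600, 0, 0, 0, 0, 0, 0, 0, 0, 0, 0, 0, 0, 0, 0],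
   [12, 0, 0, 606, 0, 0, -1062, 0, 0, 1212, 0, 0, -1062, 0, 0, 606, 0, 0, 12, 0, 0, 0, 0, 0, 0, 0, 0, 0, 0, 0, 0],
   [0, 0, 0, 0, 0, 0, 0, 0, 0, 0, 0, 0, 0, 0, 0, 0, 0, 0, 0, 0, 0, 0, 0, 0, 0, 0, 0, 0, 0, 0, 0],
   [0, -400, 0, 0, 0, 0, 0, -1200, 0, 0, 0, 0, 0, -1200, 0, 0, 0, 0, 0, -400, 0, 0, 0, 0, 0, 0, 0, 0, 0, 0, 0],
   [404, 0, 0, 404, 0, 0, 1212, 0, 0, 1212, 0, 0, 1212, 0, 0, 1212, 0, 0, 404, 0, 0, 404, 0, 0, 0, 0, 0, 0, 0, 0, 0],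
   [0, 0, 0, 0, 0, 0, 0, 0, 0, 0, 0, 0, 0, 0, 0, 0, 0, 0, 0, 0, 0, 0, 0, 0, 0, 0, 0, 0, 0, 0, 0],
   [0, -400, 0, 0, -400, 0, 0, -1200, 0, 0, -1200, 0, 0, -1200, 0, 0, -1200, 0, 0, -400, 0, 0, -400, 0, 0, 0, 0, 0, 0, 0, 0],
   [-111, 0, 0, 404, 0, 0, 1158, 0, 0, 1212, 0, 0, -1062, 0, 0, 1212, 0, 0, 1158, 0, 0, 404, 0, 0, -111, 0, 0, 0, 0, 0, 0],
   [0, 0, 0, 0, 0, 0, 0, 0, 0, 0, 0, 0, 0, 0, 0, 0, 0, 0, 0, 0, 0, 0, 0, 0, 0, 0, 0, 0, 0, 0, 0],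
   [0, -100, 0, 0, 0, 0, 0, -400, 0, 0, 0, 0, 0, -600, 0, 0, 0, 0, 0, -400, 0, 0, 0, 0, 0, -100, 0, 0, 0, 0, 0],
   [101, 0, 0, 101, 0, 0, 404, 0, 0, 404, 0, 0, 606, 0, 0, 606, 0, 0, 404, 0, 0, 404, 0, 0, 101, 0, 0, 101, 0, 0, 0],
   [0, 0, 0, 0, 0, 0, 0, 0, 0, 0, 0, 0, 0, 0, 0, 0, 0, 0, 0, 0, 0, 0, 0, 0, 0, 0, 0, 0, 0, 0, 0],
   [0, -100, 0, 0, -100, 0, 0, -400, 0, 0, -400, 0, 0, -600, 0, 0, -600, 0, 0, -400, 0, 0, -400, 0, 0, -100, 0, 0, -100, 0, 0],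
   [21, 0, 0, 101, 0, 0, -111, 0, 0, 404, 0, 0, 12, 0, 0, 606, 0, 0, 12, 0, 0, 404, 0, 0, -111, 0, 0, 101, 0, 0, 21]]

theorem fb_check : checkBox 31 (Tr.U Tr.L (Tr.U Tr.L Tr.L)) fbM = true := by decide +kernel

set_option maxHeartbeats 1000000 in
theorem fb_box (b c : ℝ) (hb : 0 ≤ b) (hb1 : b ≤ 1) (hc : 0 ≤ c) (hc1 : c ≤ 1) :
    0 ≤ fbP 1 b (b * c) := by
  have h := checkBox_sound _ _ _ fb_check b c hb hb1 hc hc1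
  have e : fbP 1 b (b * c) = b ^ 0 * ev2 fbM b c / 24300 := by
    simp only [fbM, ev2, ev, evG, fbP, psiP, zeP, enP, avP]
    push_cast
    ring
  rw [e]; positivity

end Vale.Agent.P154
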