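import Vale.Agent.P154.Ref3

namespace Vale.Agent.P154.Q3

open Q4 (dW dZ addP vadd vsm mad outer isZ lmul comb)

structure Fac where
  g : Mo
  q : Po
  hs : List ℕ
  v : List ℤ

structure Wac where
  g : Mo
  q : Po
  hs : List ℕ
  v0 : List ℤ
  vQ : List ℤ

structure Gac where
  w : ℕ
  q : Po
  hs : List ℕ
  v : List ℤ

def base (g : Mo) (q : Po) : Po := pmul q (tmul 1 g q [])

def okF (f : Fac) : Bool := isVec (base f.g f.q) f.hs f.v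

def okW (f : Wac) : Bool :=
  isVec (base f.g f.q) (0 :: 0 :: f.hs) f.v0 && isVec (base f.g f.q) (1 :: f.hs) f.vQ

def om0 (a b : ℤ) : Po := [(a - b, 1, 0, 0), (a, 0, 1, 0), (a, 0, 0, 1)]
def om1 (a b : ℤ) : Po := [(a, 1, 0, 0), (a - b, 0, 1, 0), (a, 0, 0, 1)]
def om2 (a b : ℤ) : Po := [(a, 1, 0, 0), (a, 0, 1, 0), (a - b, 0, 0, 1)]

def cl : Po → Po → Po
  | [], l => l
  | (c, g) :: p, l => cl p (ins c g l)

def wt (a b : ℤ) : ℕ → Po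
  | 0 => [(1, 0, 0, 0)]
  | 1 => om0 a b
  | 2 => cl (pmul (om0 a b) (om1 a b)) []
  | _ => cl (pmul (om2 a b) (pmul (om0 a b) (om1 a b))) []

def okG (a b : ℤ) (f : Gac) : Bool := isVec (pmul (wt a b f.w) (pmul f.q f.q)) f.hs f.v

def wL (lo hi : List ℤ) : ℕ → List ℤ
  | 0 => [1]
  | 1 => lo
  | 2 => hi
  | 3 => lmul lo hi
  | _ => [0, 1]

def sg (lo hi : List ℤ) (w : ℕ) (q : List ℤ) : List ℤ := lmul (lmul q q) (wL lo hi w)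

def dgm : Mo → ℕ
  | (a, b, c) => a + b + c

def okT (t : Mo × List ℤ) : Bool :=
  Nat.ble (dgm t.1) 12 && isVec [(3 ^ dgm t.1, t.1)] (List.replicate (12 - dgm t.1) 0) t.2

def m3 : Po := [(2, 3, 0, 0), (-3, 2, 1, 0), (-3, 2, 0, 1), (-3, 1, 2, 0), (12, 1, 1, 1),
  (-3, 1, 0, 2), (2, 0, 3, 0), (-3, 0, 2, 1), (-3, 0, 1, 2), (2, 0, 0, 3)]

def mpw : ℕ → Po
  | 0 => [(1, 0, 0, 0)]
  | n + 1 => pmul m3 (mpw n)

def okJ (t : ℕ × ℕ × List ℤ) : Bool :=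
  Nat.ble (2 * t.1 + 3 * t.2.1) 12 &&
    isVec (mpw t.2.1) (List.replicate t.1 2 ++ List.replicate (12 - (2 * t.1 + 3 * t.2.1)) 0) t.2.2

def lin : List ℤ → List (ℕ × ℕ × List ℤ) → List ℤ
  | c :: cs, (_, _, v) :: l => vadd (vsm c v) (lin cs l)
  | _, _ => []

def okR (p q : ℤ) : List ℤ → List ℤ → List (ℕ × ℕ × List ℤ) → Bool
  | c :: cs, c' :: cs', (i, j, _) :: l =>
      (c' * (-p) ^ (2 * i + 3 * j) * q ^ 2 == c * p ^ 2 * q ^ (2 * i + 3 * j)) && okR p q cs cs' l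
  | [], [], _ => true
  | _, _, _ => false

def mC : List ℤ → List (ℕ × ℕ × List ℤ) → List (List ℤ)
  | c :: cs, (i, j, v) :: l => mad (List.replicate (2 * i + 3 * j) [] ++ [vsm c v]) (mC cs l)
  | _, _ => []

def mP1 : List ℤ → List (Mo × List ℤ) → List (List ℤ)
  | k :: ks, (g, t) :: l => mad (List.replicate (dgm g) [] ++ [vsm (-k) t]) (mP1 ks l)
  | _, _ => []

def mP2 : List ℤ → List (Mo × List ℤ) → List (List ℤ)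
  | k :: ks, (_, t) :: l => mad (outer t (vsm k t)) (mP2 ks l)
  | _, _ => []

def pP : List ℤ → List (Mo × List ℤ) → Po
  | k :: ks, (g, _) :: l => (k, g) :: pP ks l
  | _, _ => []

def mT1 (lo hi : List ℤ) (VL : List (List ℤ)) :
    List (ℕ × List ℤ × List (ℕ × ℕ)) → List (List ℤ)
  | [] => []
  | (w, q, l) :: r => mad (outer (comb VL l) (sg lo hi w q)) (mT1 lo hi VL r)

def mT4 (lo hi : List ℤ) (V0 VQ : List (List ℤ)) :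
    List (ℕ × List ℤ × List (ℕ × ℕ)) → List (List ℤ)
  | [] => []
  | (w, q, l) :: r => mad (outer (vsm 3 (comb VQ l)) (sg lo hi w q))
      (mad ([] :: outer (vsm (-1) (comb V0 l)) (sg lo hi w q)) (mT4 lo hi V0 VQ r))

def mT0 (VL GX : List (List ℤ)) : List (ℕ × List (ℕ × ℕ)) → List (List ℤ)
  | [] => []
  | (i, l) :: r => mad (outer (VL.getD i []) (comb GX l)) (mT0 VL GX r)

def TH : List (Mo × List ℤ) := [
  ((0, 0, 0), [3, 72, 396, 396, 1320, 3960, 2970, 11880, 8910, 4752, 23760, 47520, 2772, 33264, 83160, 55440, 49896, 166320, 34650]),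
  ((1, 0, 0), [3, 72, 396, 396, 1320, 3960, 2970, 11880, 8910, 4752, 23760, 47520, 2772, 33264, 83160, 55440, 49896, 166320, 34650]),
  ((2, 0, 0), [9, 180, 828, 810, 2340, 6660, 4590, 16740, 12150, 6696, 29160, 54000, 3780, 37800, 83160, 52920, 47628, 143640, 28350]),
  ((1, 1, 0), [0, 18, 180, 189, 810, 2610, 2160, 9450, 7290, 3780, 21060, 44280, 2268, 30996, 83160, 56700, 51030, 177660, 37800]),
  ((3, 0, 0), [27, 486, 1944, 1944, 4590, 13608, 7290, 27702, 20412, 8748, 37908, 69984, 4536, 40824, 81648, 49896, 40824, 102060, 17010]),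
  ((2, 1, 0), [0, 27, 270, 243, 1215, 3186, 3240, 11259, 8019, 5670, 24786, 46008, 3402, 36288, 83916, 54432, 51030, 164430, 34020]),
  ((1, 1, 1), [0, 0, 0, 81, 0, 1458, 0, 5832, 5832, 0, 13608, 40824, 0, 20412, 81648, 61236, 51030, 204120, 45360]),
  ((4, 0, 0), [81, 1296, 4536, 4536, 9072, 27216, 11502, 45360, 34020, 10368, 46656, 90720, 4536, 36288, 72576, 45360, 27216, 54432, 5670]),
  ((3, 1, 0), [0, 81, 648, 648, 2349, 6804, 5184, 18873, 13608, 7938, 33534, 59616, 4536, 43092, 86184, 52164, 47628, 125874, 22680]),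
  ((2, 2, 0), [0, 0, 162, 0, 1296, 1296, 4536, 9072, 4617, 9072, 27216, 37584, 5670, 45360, 83916, 49896, 54432, 163296, 34020]),
  ((2, 1, 1), [0, 0, 0, 81, 0, 1458, 0, 5832, 5832, 0, 13608, 40824, 0, 20412, 81648, 61236, 51030, 204120, 45360]),
  ((5, 0, 0), [243, 3402, 10206, 10206, 17010, 51030, 17010, 68040, 51030, 10692, 51030, 102060, 3402, 23814, 51030, 34020, 10206, 17010, 0]),
  ((4, 1, 0), [0, 243, 1701, 1701, 5103, 15309, 8748, 34020, 25515, 10206, 44469, 85050, 5103, 42525, 83349, 51030, 35721, 73143, 8505]),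
  ((3, 2, 0), [0, 0, 243, 0, 1944, 1701, 6804, 11907, 5103, 13608, 35721, 39366, 8505, 59535, 86751, 44226, 56133, 134379, 25515]),
  ((3, 1, 1), [0, 0, 0, 243, 0, 3402, 0, 10692, 10206, 0, 20412, 54432, 0, 27216, 88452, 61236, 51030, 170100, 34020]),
  ((2, 2, 1), [0, 0, 0, 0, 0, 486, 0, 3402, 3645, 0, 10206, 34020, 0, 17010, 78246, 61236, 51030, 221130, 51030]),
  ((6, 0, 0), [729, 8748, 21870, 21870, 29160, 87480, 21870, 87480, 65610, 8748, 43740, 87480, 1458, 8748, 21870, 14580, 0, 0, 0]),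
  ((5, 1, 0), [0, 729, 4374, 4374, 10935, 32805, 14580, 58320, 43740, 11664, 54675, 109350, 4374, 31347, 65610, 43740, 15309, 25515, 0]),
  ((4, 2, 0), [0, 0, 729, 0, 4374, 4374, 11664, 21870, 10935, 18954, 48114, 58320, 10935, 65610, 88209, 43740, 48114, 84564, 10935]),
  ((4, 1, 1), [0, 0, 0, 729, 0, 8748, 0, 21870, 21870, 0, 30618, 87480, 0, 30618, 96228, 65610, 43740, 109350, 14580]),
  ((3, 3, 0), [0, 0, 0, 0, 1458, 0, 8748, 8748, 0, 21870, 43740, 21870, 14580, 87480, 87480, 29889, 65610, 118098, 21870]),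
  ((3, 2, 1), [0, 0, 0, 0, 0, 729, 0, 5103, 4374, 0, 15309, 37908, 0, 25515, 84564, 59049, 54675, 200475, 43740]),
  ((2, 2, 2), [0, 0, 0, 0, 0, 0, 0, 0, 2187, 0, 0, 26244, 0, 0, 65610, 65610, 43740, 262440, 65610]),
  ((7, 0, 0), [2187, 21870, 43740, 43740, 43740, 131220, 21870, 87480, 65610, 4374, 21870, 43740, 0, 0, 0, 0, 0, 0, 0]),
  ((6, 1, 0), [0, 2187, 10935, 10935, 21870, 65610, 21870, 87480, 65610, 10935, 54675, 109350, 2187, 13122, 32805, 21870, 0, 0, 0]),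
  ((5, 2, 0), [0, 0, 2187, 0, 10935, 10935, 21870, 43740, 21870, 24057, 65610, 87480, 10935, 54675, 76545, 43740, 24057, 32805, 0]),
  ((5, 1, 1), [0, 0, 0, 2187, 0, 21870, 0, 43740, 43740, 0, 43740, 131220, 0, 26244, 87480, 65610, 21870, 43740, 0]),
  ((4, 3, 0), [0, 0, 0, 0, 2187, 0, 13122, 10935, 0, 32805, 54675, 21870, 21870, 109350, 87480, 21870, 65610, 78732, 10935]),
  ((4, 2, 1), [0, 0, 0, 0, 0, 2187, 0, 10935, 10935, 0, 24057, 65610, 0, 32805, 100602, 65610, 54675, 142155, 21870]),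
  ((3, 3, 1), [0, 0, 0, 0, 0, 0, 0, 4374, 0, 0, 21870, 21870, 0, 43740, 87480, 45927, 65610, 196830, 43740]),
  ((3, 2, 2), [0, 0, 0, 0, 0, 0, 0, 0, 2187, 0, 0, 26244, 0, 0, 65610, 65610, 43740, 262440, 65610]),
  ((8, 0, 0), [6561, 52488, 78732, 78732, 52488, 157464, 13122, 52488, 39366, 0, 0, 0, 0, 0, 0, 0, 0, 0, 0]),
  ((7, 1, 0), [0, 6561, 26244, 26244, 39366, 118098, 26244, 104976, 78732, 6561, 32805, 65610, 0, 0, 0, 0, 0, 0, 0]),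
  ((6, 2, 0), [0, 0, 6561, 0, 26244, 26244, 39366, 78732, 39366, 26244, 78732, 104976, 6561, 26244, 45927, 26244, 0, 0, 0]),
  ((6, 1, 1), [0, 0, 0, 6561, 0, 52488, 0, 78732, 78732, 0, 52488, 157464, 0, 13122, 52488, 39366, 0, 0, 0]),
  ((5, 3, 0), [0, 0, 0, 0, 6561, 0, 26244, 26244, 0, 45927, 78732, 39366, 26244, 104976, 78732, 26244, 39366, 32805, 0]),
  ((5, 2, 1), [0, 0, 0, 0, 0, 6561, 0, 26244, 26244, 0, 39366, 118098, 0, 32805, 104976, 78732, 32805, 65610, 0]),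
  ((4, 4, 0), [0, 0, 0, 0, 0, 0, 13122, 0, 0, 52488, 52488, 0, 39366, 157464, 78732, 0, 78732, 52488, 6561]),
  ((4, 3, 1), [0, 0, 0, 0, 0, 0, 0, 6561, 0, 0, 32805, 26244, 0, 65610, 104976, 39366, 78732, 150903, 26244]),
  ((4, 2, 2), [0, 0, 0, 0, 0, 0, 0, 0, 6561, 0, 0, 52488, 0, 0, 91854, 78732, 52488, 209952, 39366]),
  ((3, 3, 2), [0, 0, 0, 0, 0, 0, 0, 0, 0, 0, 0, 13122, 0, 0, 52488, 59049, 39366, 288684, 78732]),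
  ((9, 0, 0), [19683, 118098, 118098, 118098, 39366, 118098, 0, 0, 0, 0, 0, 0, 0, 0, 0, 0, 0, 0, 0]),
  ((8, 1, 0), [0, 19683, 59049, 59049, 59049, 177147, 19683, 78732, 59049, 0, 0, 0, 0, 0, 0, 0, 0, 0, 0]),
  ((7, 2, 0), [0, 0, 19683, 0, 59049, 59049, 59049, 118098, 59049, 19683, 59049, 78732, 0, 0, 0, 0, 0, 0, 0]),
  ((7, 1, 1), [0, 0, 0, 19683, 0, 118098, 0, 118098, 118098, 0, 39366, 118098, 0, 0, 0, 0, 0, 0, 0]),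
  ((6, 3, 0), [0, 0, 0, 0, 19683, 0, 59049, 59049, 0, 59049, 118098, 59049, 19683, 59049, 59049, 19683, 0, 0, 0]),
  ((6, 2, 1), [0, 0, 0, 0, 0, 19683, 0, 59049, 59049, 0, 59049, 177147, 0, 19683, 78732, 59049, 0, 0, 0]),
  ((5, 4, 0), [0, 0, 0, 0, 0, 0, 19683, 0, 0, 78732, 59049, 0, 59049, 177147, 59049, 0, 59049, 19683, 0]),
  ((5, 3, 1), [0, 0, 0, 0, 0, 0, 0, 19683, 0, 0, 59049, 59049, 0, 78732, 118098, 59049, 59049, 78732, 0]),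
  ((5, 2, 2), [0, 0, 0, 0, 0, 0, 0, 0, 19683, 0, 0, 118098, 0, 0, 118098, 118098, 39366, 118098, 0]),
  ((4, 4, 1), [0, 0, 0, 0, 0, 0, 0, 0, 0, 0, 39366, 0, 0, 118098, 118098, 0, 118098, 118098, 19683]),
  ((4, 3, 2), [0, 0, 0, 0, 0, 0, 0, 0, 0, 0, 0, 19683, 0, 0, 78732, 59049, 59049, 255879, 59049]),
  ((3, 3, 3), [0, 0, 0, 0, 0, 0, 0, 0, 0, 0, 0, 0, 0, 0, 0, 59049, 0, 354294, 118098]),
  ((10, 0, 0), [59049, 236196, 118098, 118098, 0, 0, 0, 0, 0, 0, 0, 0, 0, 0, 0, 0, 0, 0, 0]),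
  ((9, 1, 0), [0, 59049, 118098, 118098, 59049, 177147, 0, 0, 0, 0, 0, 0, 0, 0, 0, 0, 0, 0, 0]),
  ((8, 2, 0), [0, 0, 59049, 0, 118098, 118098, 59049, 118098, 59049, 0, 0, 0, 0, 0, 0, 0, 0, 0, 0]),
  ((8, 1, 1), [0, 0, 0, 59049, 0, 236196, 0, 118098, 118098, 0, 0, 0, 0, 0, 0, 0, 0, 0, 0]),
  ((7, 3, 0), [0, 0, 0, 0, 59049, 0, 118098, 118098, 0, 59049, 118098, 59049, 0, 0, 0, 0, 0, 0, 0]),
  ((7, 2, 1), [0, 0, 0, 0, 0, 59049, 0, 118098, 118098, 0, 59049, 177147, 0, 0, 0, 0, 0, 0, 0]),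
  ((6, 4, 0), [0, 0, 0, 0, 0, 0, 59049, 0, 0, 118098, 118098, 0, 59049, 118098, 59049, 0, 0, 0, 0]),
  ((6, 3, 1), [0, 0, 0, 0, 0, 0, 0, 59049, 0, 0, 118098, 118098, 0, 59049, 118098, 59049, 0, 0, 0]),
  ((6, 2, 2), [0, 0, 0, 0, 0, 0, 0, 0, 59049, 0, 0, 236196, 0, 0, 118098, 118098, 0, 0, 0]),
  ((5, 5, 0), [0, 0, 0, 0, 0, 0, 0, 0, 0, 118098, 0, 0, 118098, 236196, 0, 0, 59049, 0, 0]),
  ((5, 4, 1), [0, 0, 0, 0, 0, 0, 0, 0, 0, 0, 59049, 0, 0, 177147, 118098, 0, 118098, 59049, 0]),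
  ((5, 3, 2), [0, 0, 0, 0, 0, 0, 0, 0, 0, 0, 0, 59049, 0, 0, 118098, 118098, 59049, 177147, 0]),
  ((4, 4, 2), [0, 0, 0, 0, 0, 0, 0, 0, 0, 0, 0, 0, 0, 0, 118098, 0, 118098, 236196, 59049]),
  ((4, 3, 3), [0, 0, 0, 0, 0, 0, 0, 0, 0, 0, 0, 0, 0, 0, 0, 59049, 0, 354294, 118098]),
  ((11, 0, 0), [177147, 354294, 0, 0, 0, 0, 0, 0, 0, 0, 0, 0, 0, 0, 0, 0, 0, 0, 0]),
  ((10, 1, 0), [0, 177147, 177147, 177147, 0, 0, 0, 0, 0, 0, 0, 0, 0, 0, 0, 0, 0, 0, 0]),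
  ((9, 2, 0), [0, 0, 177147, 0, 177147, 177147, 0, 0, 0, 0, 0, 0, 0, 0, 0, 0, 0, 0, 0]),
  ((9, 1, 1), [0, 0, 0, 177147, 0, 354294, 0, 0, 0, 0, 0, 0, 0, 0, 0, 0, 0, 0, 0]),
  ((8, 3, 0), [0, 0, 0, 0, 177147, 0, 177147, 177147, 0, 0, 0, 0, 0, 0, 0, 0, 0, 0, 0]),
  ((8, 2, 1), [0, 0, 0, 0, 0, 177147, 0, 177147, 177147, 0, 0, 0, 0, 0, 0, 0, 0, 0, 0]),
  ((7, 4, 0), [0, 0, 0, 0, 0, 0, 177147, 0, 0, 177147, 177147, 0, 0, 0, 0, 0, 0, 0, 0]),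
  ((7, 3, 1), [0, 0, 0, 0, 0, 0, 0, 177147, 0, 0, 177147, 177147, 0, 0, 0, 0, 0, 0, 0]),
  ((7, 2, 2), [0, 0, 0, 0, 0, 0, 0, 0, 177147, 0, 0, 354294, 0, 0, 0, 0, 0, 0, 0]),
  ((6, 5, 0), [0, 0, 0, 0, 0, 0, 0, 0, 0, 177147, 0, 0, 177147, 177147, 0, 0, 0, 0, 0]),
  ((6, 4, 1), [0, 0, 0, 0, 0, 0, 0, 0, 0, 0, 177147, 0, 0, 177147, 177147, 0, 0, 0, 0]),
  ((6, 3, 2), [0, 0, 0, 0, 0, 0, 0, 0, 0, 0, 0, 177147, 0, 0, 177147, 177147, 0, 0, 0]),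
  ((5, 5, 1), [0, 0, 0, 0, 0, 0, 0, 0, 0, 0, 0, 0, 0, 354294, 0, 0, 177147, 0, 0]),
  ((5, 4, 2), [0, 0, 0, 0, 0, 0, 0, 0, 0, 0, 0, 0, 0, 0, 177147, 0, 177147, 177147, 0]),
  ((5, 3, 3), [0, 0, 0, 0, 0, 0, 0, 0, 0, 0, 0, 0, 0, 0, 0, 177147, 0, 354294, 0]),
  ((4, 4, 3), [0, 0, 0, 0, 0, 0, 0, 0, 0, 0, 0, 0, 0, 0, 0, 0, 0, 354294, 177147]),
  ((12, 0, 0), [531441, 0, 0, 0, 0, 0, 0, 0, 0, 0, 0, 0, 0, 0, 0, 0, 0, 0, 0]),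
  ((11, 1, 0), [0, 531441, 0, 0, 0, 0, 0, 0, 0, 0, 0, 0, 0, 0, 0, 0, 0, 0, 0]),
  ((10, 2, 0), [0, 0, 531441, 0, 0, 0, 0, 0, 0, 0, 0, 0, 0, 0, 0, 0, 0, 0, 0]),
  ((10, 1, 1), [0, 0, 0, 531441, 0, 0, 0, 0, 0, 0, 0, 0, 0, 0, 0, 0, 0, 0, 0]),
  ((9, 3, 0), [0, 0, 0, 0, 531441, 0, 0, 0, 0, 0, 0, 0, 0, 0, 0, 0, 0, 0, 0]),
  ((9, 2, 1), [0, 0, 0, 0, 0, 531441, 0, 0, 0, 0, 0, 0, 0, 0, 0, 0, 0, 0, 0]),
  ((8, 4, 0), [0, 0, 0, 0, 0, 0, 531441, 0, 0, 0, 0, 0, 0, 0, 0, 0, 0, 0, 0]),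
  ((8, 3, 1), [0, 0, 0, 0, 0, 0, 0, 531441, 0, 0, 0, 0, 0, 0, 0, 0, 0, 0, 0]),
  ((8, 2, 2), [0, 0, 0, 0, 0, 0, 0, 0, 531441, 0, 0, 0, 0, 0, 0, 0, 0, 0, 0]),
  ((7, 5, 0), [0, 0, 0, 0, 0, 0, 0, 0, 0, 531441, 0, 0, 0, 0, 0, 0, 0, 0, 0]),
  ((7, 4, 1), [0, 0, 0, 0, 0, 0, 0, 0, 0, 0, 531441, 0, 0, 0, 0, 0, 0, 0, 0]),
  ((7, 3, 2), [0, 0, 0, 0, 0, 0, 0, 0, 0, 0, 0, 531441, 0, 0, 0, 0, 0, 0, 0]),
  ((6, 6, 0), [0, 0, 0, 0, 0, 0, 0, 0, 0, 0, 0, 0, 531441, 0, 0, 0, 0, 0, 0]),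
  ((6, 5, 1), [0, 0, 0, 0, 0, 0, 0, 0, 0, 0, 0, 0, 0, 531441, 0, 0, 0, 0, 0]),
  ((6, 4, 2), [0, 0, 0, 0, 0, 0, 0, 0, 0, 0, 0, 0, 0, 0, 531441, 0, 0, 0, 0]),
  ((6, 3, 3), [0, 0, 0, 0, 0, 0, 0, 0, 0, 0, 0, 0, 0, 0, 0, 531441, 0, 0, 0]),
  ((5, 5, 2), [0, 0, 0, 0, 0, 0, 0, 0, 0, 0, 0, 0, 0, 0, 0, 0, 531441, 0, 0]),
  ((5, 4, 3), [0, 0, 0, 0, 0, 0, 0, 0, 0, 0, 0, 0, 0, 0, 0, 0, 0, 531441, 0]),
  ((4, 4, 4), [0, 0, 0, 0, 0, 0, 0, 0, 0, 0, 0, 0, 0, 0, 0, 0, 0, 0, 531441])]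

def TJ : List (ℕ × ℕ × List ℤ) := [
  (0, 0, [3, 72, 396, 396, 1320, 3960, 2970, 11880, 8910, 4752, 23760, 47520, 2772, 33264, 83160, 55440, 49896, 166320, 34650]),
  (1, 0, [6, 108, 432, 414, 1020, 2700, 1620, 4860, 3240, 1944, 5400, 6480, 1008, 4536, 0, -2520, -2268, -22680, -6300]),
  (0, 1, [6, 90, 252, 306, 210, 1548, -540, 1242, 1782, -1836, -2052, 3024, -1260, -6048, -1512, 2016, -2268, 3780, 1260]),
  (2, 0, [12, 144, 360, 288, 528, 576, 648, -432, -972, 864, -864, -5184, 504, 0, -3024, -2016, 0, 6048, 2520]),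
  (1, 1, [12, 108, 108, 180, -228, 108, -648, -648, -324, -648, 108, -648, -252, 2268, 2268, -504, 2268, -2268, -1260]),
  (0, 2, [12, 72, -90, 126, -552, 72, -432, -756, 648, 864, -1188, 1836, 882, -756, -918, 1602, -1620, 108, 90]),
  (3, 0, [24, 144, 144, -72, 192, -1152, 432, -864, -648, 432, -432, 3024, 144, -2160, 1728, 3528, -1296, -1728, -1440]),
  (2, 1, [24, 72, -144, -72, -240, -360, 0, 1080, 0, -216, 2160, 0, -288, 648, -2160, -1440, -1944, 1080, 1800]),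
  (1, 2, [24, 0, -324, 36, -132, 324, 648, 324, 324, 324, -756, -1296, -180, -2268, 2268, -1656, 3564, 0, -1224]),
  (4, 0, [48, 0, 0, -576, 384, 0, 0, 0, 2592, 0, -3456, 0, 288, 0, 0, -4608, 5184, 0, 144]),
  (0, 3, [24, -72, -396, 252, 354, 414, 1404, -3132, 1296, -378, -2376, 594, -1152, 6102, -4428, 4662, -3240, -108, 180]),
  (3, 1, [48, -144, -144, -144, 384, 1152, -432, 864, -1296, -432, -864, -3024, 288, 2160, -1728, 7056, -2592, 1728, -2880]),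
  (2, 2, [48, -288, -72, 504, 816, 144, -648, -1728, -1944, -432, 432, 5184, 720, -1296, 7344, -5472, -1944, -8208, 6840]),
  (5, 0, [96, -576, 1152, -288, -960, 2880, 0, -8640, 0, 1728, 8640, 0, -1152, -5184, 17280, -5760, -7776, -8640, 7200])]

theorem TH_ok : TH.all okT = true := by decide +kernel

theorem TJ_ok : TJ.all okJ = true := by decide +kernel

/-- a certificate -/
structure Cert where
  p : ℕ
  q : ℕ
  fs : List Fac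
  ws : List Wac
  gs : List Gac
  k : List ℤ
  cs : List ℤ
  cs' : List ℤ
  cb : List ℤ
  gam : ℕ
  t1 : List (ℕ × List ℤ × List (ℕ × ℕ))
  t4 : List (ℕ × List ℤ × List (ℕ × ℕ))
  t0 : List (ℕ × List (ℕ × ℕ))
  tb : List (ℕ × ℕ)
  t8 : List (ℕ × List ℤ × List (ℕ × ℕ))
  t9 : List (ℕ × ℕ)

def Cert.lo (C : Cert) : List ℤ := [2 * C.p - C.q, C.q]

def Cert.hi (C : Cert) : List ℤ := [C.p + C.q, -C.q]

def cI (C : Cert) : Bool :=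
  isZ (mad (mP1 C.k TH) (mad [[], lin C.cs TJ] (mad (mT1 C.lo C.hi (C.fs.map Fac.v) C.t1)
    (mT4 C.lo C.hi (C.ws.map Wac.v0) (C.ws.map Wac.vQ) C.t4))))

def cII (C : Cert) : Bool :=
  isZ (mad (mP2 C.k TH) (mad (outer (lin C.cs TJ) (lin [-1] TJ))
    (mad (outer (lin [-1] TJ) (lin C.cs' TJ)) (mad (outer (lin [0, C.gam] TJ) (lin [0, 1] TJ))
    (mad (outer (lin C.cb TJ) (comb (C.gs.map Gac.v) C.tb))
    (mT0 (C.fs.map Fac.v) (C.gs.map Gac.v) C.t0))))))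

def cIII (C : Cert) : Bool :=
  okR C.p C.q C.cs C.cs' TJ &&
  (isZ (mad (mC C.cs TJ) (mad [[], [], vsm (-1) (lin C.cs TJ)]
    (mT1 [0, 1] [1, -1] (C.fs.map Fac.v) C.t8))) &&
  isZ [vadd (vsm (-1) (lin C.cs TJ)) (comb (C.fs.map Fac.v) C.t9)])

end Vale.Agent.P154.Q3
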