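import Vale.Agent.P154.Ref4

namespace Vale.Agent.P154.Q4

structure Fac where
  g : Mo
  q : Po
  hs : List ℕ
  v : List ℤ

structure Wac where
  g : Mo
  q : Po
  hs : List ℕ
  v0 : List ℤ
  vQ : List ℤ

def base (g : Mo) (q : Po) : Po := pmul q (tmul 1 g q [])

def okF (f : Fac) : Bool := isVec (base f.g f.q) f.hs f.v

def okW (f : Wac) : Bool :=
  isVec (base f.g f.q) (0 :: 0 :: f.hs) f.v0 && isVec (base f.g f.q) (1 :: f.hs) f.vQ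

def addP {α : Type} (f : α → α → α) : List α → List α → List α
  | [], ys => ys
  | x :: xs, [] => x :: xs
  | x :: xs, y :: ys => f x y :: addP f xs ys

def vadd : List ℤ → List ℤ → List ℤ := addP fun a b => a + b

def vsm (c : ℤ) : List ℤ → List ℤ
  | [] => []
  | a :: v => c * a :: vsm c v

def mad : List (List ℤ) → List (List ℤ) → List (List ℤ) := addP vadd

def outer (w : List ℤ) : List ℤ → List (List ℤ)
  | [] => []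
  | a :: u => vsm a w :: outer w u

def isZ (M : List (List ℤ)) : Bool := M.all fun r => r.all fun a => a == 0

def lmul (q : List ℤ) : List ℤ → List ℤ
  | [] => []
  | c :: p => vadd (vsm c q) (0 :: lmul q p)

def wD : ℕ → List ℤ
  | 0 => [1]
  | 1 => [0, 1]
  | 2 => [4, -1]
  | _ => [0, 4, -1]

def sig (w : ℕ) (q : List ℤ) : List ℤ := lmul (lmul q q) (wD w)

def comb (VL : List (List ℤ)) : List (ℕ × ℕ) → List ℤ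
  | [] => []
  | (e, i) :: l => vadd (vsm e (VL.getD i [])) (comb VL l)

def dgm : Mo → ℕ
  | (a, b, c, d) => a + b + c + d

def okT (t : Mo × List ℤ) : Bool :=
  Nat.ble (dgm t.1) 8 && isVec [(4 ^ dgm t.1, t.1)] (List.replicate (8 - dgm t.1) 0) t.2

def mP1 : List ℤ → List (Mo × List ℤ) → List (List ℤ)
  | k :: ks, (g, t) :: l => mad (List.replicate (dgm g) [] ++ [vsm (-k) t]) (mP1 ks l)
  | _, _ => []

def mP2 : List ℤ → List (Mo × List ℤ) → List (List ℤ)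
  | k :: ks, (_, t) :: l => mad (outer t (vsm k t)) (mP2 ks l)
  | _, _ => []

def pP : List ℤ → List (Mo × List ℤ) → Po
  | k :: ks, (g, _) :: l => (k, g) :: pP ks l
  | _, _ => []

def mT1 (VL : List (List ℤ)) : List (ℕ × List ℤ × List (ℕ × ℕ)) → List (List ℤ)
  | [] => []
  | (w, q, l) :: r => mad (outer (comb VL l) (sig w q)) (mT1 VL r)

def mT4 (V0 VQ : List (List ℤ)) : List (ℕ × List ℤ × List (ℕ × ℕ)) → List (List ℤ)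
  | [] => []
  | (w, q, l) :: r => mad (outer (vsm 4 (comb VQ l)) (sig w q))
      (mad ([] :: outer (vsm (-1) (comb V0 l)) (sig w q)) (mT4 V0 VQ r))

def mT0 (VL : List (List ℤ)) : List (ℕ × List (ℕ × ℕ)) → List (List ℤ)
  | [] => []
  | (i, l) :: r => mad (outer (comb VL l) (VL.getD i []))
      (mad (outer (VL.getD i []) (comb VL l)) (mT0 VL r))

def TH : List (Mo × List ℤ) := [
  ((0, 0, 0, 0), [4, 96, 336, 672, 672, 4032, 1344, 420, 6720, 5040, 10080, 6720, 6720, 20160, 2520]),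
  ((1, 0, 0, 0), [4, 96, 336, 672, 672, 4032, 1344, 420, 6720, 5040, 10080, 6720, 6720, 20160, 2520]),
  ((2, 0, 0, 0), [16, 288, 768, 1440, 1248, 6336, 1920, 720, 8640, 5760, 10080, 6720, 5760, 14400, 1440]),
  ((1, 1, 0, 0), [0, 32, 192, 416, 480, 3264, 1152, 320, 6080, 4800, 10080, 6720, 7040, 22080, 2880]),
  ((3, 0, 0, 0), [64, 960, 1920, 3840, 2112, 11520, 3840, 960, 9600, 5760, 11520, 3840, 3840, 5760, 0]),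
  ((2, 1, 0, 0), [0, 64, 384, 640, 960, 4608, 1280, 640, 8320, 5760, 9600, 7680, 6400, 17280, 1920]),
  ((1, 1, 1, 0), [0, 0, 0, 192, 0, 1920, 1024, 0, 3840, 3840, 10560, 5760, 7680, 26880, 3840]),
  ((4, 0, 0, 0), [256, 3072, 4608, 9216, 3072, 18432, 6144, 768, 6144, 4608, 9216, 0, 0, 0, 0]),
  ((3, 1, 0, 0), [0, 256, 1024, 2048, 1792, 9216, 3072, 1024, 10752, 6144, 12288, 5120, 5120, 7680, 0]),
  ((2, 2, 0, 0), [0, 0, 512, 0, 2048, 4096, 0, 1536, 12288, 6656, 6144, 10240, 6144, 14336, 1536]),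
  ((2, 1, 1, 0), [0, 0, 0, 256, 0, 2560, 1024, 0, 5120, 5120, 9984, 7680, 7168, 23552, 3072]),
  ((1, 1, 1, 1), [0, 0, 0, 0, 0, 0, 1024, 0, 0, 0, 12288, 0, 9216, 36864, 6144]),
  ((5, 0, 0, 0), [1024, 9216, 9216, 18432, 3072, 18432, 6144, 0, 0, 0, 0, 0, 0, 0, 0]),
  ((4, 1, 0, 0), [0, 1024, 3072, 6144, 3072, 18432, 6144, 1024, 8192, 6144, 12288, 0, 0, 0, 0]),
  ((3, 2, 0, 0), [0, 0, 1024, 0, 4096, 6144, 0, 3072, 18432, 6144, 6144, 8192, 6144, 6144, 0]),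
  ((3, 1, 1, 0), [0, 0, 0, 1024, 0, 6144, 3072, 0, 8192, 6144, 15360, 6144, 7168, 12288, 0]),
  ((2, 2, 1, 0), [0, 0, 0, 0, 0, 2048, 0, 0, 6144, 7168, 6144, 12288, 6144, 22528, 3072]),
  ((2, 1, 1, 1), [0, 0, 0, 0, 0, 0, 1024, 0, 0, 0, 12288, 0, 9216, 36864, 6144]),
  ((6, 0, 0, 0), [4096, 24576, 12288, 24576, 0, 0, 0, 0, 0, 0, 0, 0, 0, 0, 0]),
  ((5, 1, 0, 0), [0, 4096, 8192, 16384, 4096, 24576, 8192, 0, 0, 0, 0, 0, 0, 0, 0]),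
  ((4, 2, 0, 0), [0, 0, 4096, 0, 8192, 16384, 0, 4096, 16384, 8192, 8192, 0, 0, 0, 0]),
  ((4, 1, 1, 0), [0, 0, 0, 4096, 0, 16384, 8192, 0, 8192, 8192, 20480, 0, 0, 0, 0]),
  ((3, 3, 0, 0), [0, 0, 0, 0, 8192, 0, 0, 8192, 32768, 0, 0, 8192, 8192, 0, 0]),
  ((3, 2, 1, 0), [0, 0, 0, 0, 0, 4096, 0, 0, 12288, 8192, 8192, 12288, 8192, 12288, 0]),
  ((3, 1, 1, 1), [0, 0, 0, 0, 0, 0, 4096, 0, 0, 0, 24576, 0, 12288, 24576, 0]),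
  ((2, 2, 2, 0), [0, 0, 0, 0, 0, 0, 0, 0, 0, 12288, 0, 24576, 0, 24576, 4096]),
  ((2, 2, 1, 1), [0, 0, 0, 0, 0, 0, 0, 0, 0, 0, 8192, 0, 8192, 40960, 8192]),
  ((7, 0, 0, 0), [16384, 49152, 0, 0, 0, 0, 0, 0, 0, 0, 0, 0, 0, 0, 0]),
  ((6, 1, 0, 0), [0, 16384, 16384, 32768, 0, 0, 0, 0, 0, 0, 0, 0, 0, 0, 0]),
  ((5, 2, 0, 0), [0, 0, 16384, 0, 16384, 32768, 0, 0, 0, 0, 0, 0, 0, 0, 0]),
  ((5, 1, 1, 0), [0, 0, 0, 16384, 0, 32768, 16384, 0, 0, 0, 0, 0, 0, 0, 0]),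
  ((4, 3, 0, 0), [0, 0, 0, 0, 16384, 0, 0, 16384, 32768, 0, 0, 0, 0, 0, 0]),
  ((4, 2, 1, 0), [0, 0, 0, 0, 0, 16384, 0, 0, 16384, 16384, 16384, 0, 0, 0, 0]),
  ((4, 1, 1, 1), [0, 0, 0, 0, 0, 0, 16384, 0, 0, 0, 49152, 0, 0, 0, 0]),
  ((3, 3, 1, 0), [0, 0, 0, 0, 0, 0, 0, 0, 32768, 0, 0, 16384, 16384, 0, 0]),
  ((3, 2, 2, 0), [0, 0, 0, 0, 0, 0, 0, 0, 0, 16384, 0, 32768, 0, 16384, 0]),
  ((3, 2, 1, 1), [0, 0, 0, 0, 0, 0, 0, 0, 0, 0, 16384, 0, 16384, 32768, 0]),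
  ((2, 2, 2, 1), [0, 0, 0, 0, 0, 0, 0, 0, 0, 0, 0, 0, 0, 49152, 16384]),
  ((8, 0, 0, 0), [65536, 0, 0, 0, 0, 0, 0, 0, 0, 0, 0, 0, 0, 0, 0]),
  ((7, 1, 0, 0), [0, 65536, 0, 0, 0, 0, 0, 0, 0, 0, 0, 0, 0, 0, 0]),
  ((6, 2, 0, 0), [0, 0, 65536, 0, 0, 0, 0, 0, 0, 0, 0, 0, 0, 0, 0]),
  ((6, 1, 1, 0), [0, 0, 0, 65536, 0, 0, 0, 0, 0, 0, 0, 0, 0, 0, 0]),
  ((5, 3, 0, 0), [0, 0, 0, 0, 65536, 0, 0, 0, 0, 0, 0, 0, 0, 0, 0]),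
  ((5, 2, 1, 0), [0, 0, 0, 0, 0, 65536, 0, 0, 0, 0, 0, 0, 0, 0, 0]),
  ((5, 1, 1, 1), [0, 0, 0, 0, 0, 0, 65536, 0, 0, 0, 0, 0, 0, 0, 0]),
  ((4, 4, 0, 0), [0, 0, 0, 0, 0, 0, 0, 65536, 0, 0, 0, 0, 0, 0, 0]),
  ((4, 3, 1, 0), [0, 0, 0, 0, 0, 0, 0, 0, 65536, 0, 0, 0, 0, 0, 0]),
  ((4, 2, 2, 0), [0, 0, 0, 0, 0, 0, 0, 0, 0, 65536, 0, 0, 0, 0, 0]),
  ((4, 2, 1, 1), [0, 0, 0, 0, 0, 0, 0, 0, 0, 0, 65536, 0, 0, 0, 0]),
  ((3, 3, 2, 0), [0, 0, 0, 0, 0, 0, 0, 0, 0, 0, 0, 65536, 0, 0, 0]),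
  ((3, 3, 1, 1), [0, 0, 0, 0, 0, 0, 0, 0, 0, 0, 0, 0, 65536, 0, 0]),
  ((3, 2, 2, 1), [0, 0, 0, 0, 0, 0, 0, 0, 0, 0, 0, 0, 0, 65536, 0]),
  ((2, 2, 2, 2), [0, 0, 0, 0, 0, 0, 0, 0, 0, 0, 0, 0, 0, 0, 65536])]

def v1 : List ℤ := [4, 96, 336, 672, 672, 4032, 1344, 420, 6720, 5040, 10080, 6720, 6720, 20160, 2520]

def va : List ℤ := [12, 192, 432, 768, 576, 2304, 576, 300, 1920, 720, 0, 0, -960, -5760, -1080]

def vaa : List ℤ := [36, 288, 336, 96, 480, -960, -960, 324, 192, -336, -3168, 960, -192, 2112, 792]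

def vpsi : List ℤ := [4416, 86784, 13056, 604416, -516864, 861696, 1167360, -456384, -2244096, -1066752, 3223296, -2969088, 325632, 953856, 12672]

def m3 : Po := [(24, 3, 0, 0, 0), (-24, 2, 1, 0, 0), (-24, 2, 0, 1, 0), (-24, 2, 0, 0, 1), (-24, 1, 2, 0, 0), (48, 1, 1, 1, 0), (48, 1, 1, 0, 1), (-24, 1, 0, 2, 0), (48, 1, 0, 1, 1), (-24, 1, 0, 0, 2), (24, 0, 3, 0, 0), (-24, 0, 2, 1, 0), (-24, 0, 2, 0, 1), (-24, 0, 1, 2, 0), (48, 0, 1, 1, 1), (-24, 0, 1, 0, 2), (24, 0, 0, 3, 0), (-24, 0, 0, 2, 1), (-24, 0, 0, 1, 2), (24, 0, 0, 0, 3)]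

theorem TH_ok : TH.all okT = true := by decide +kernel

theorem v1_ok : isVec [(1, 0, 0, 0, 0)] [0, 0, 0, 0, 0, 0, 0, 0] v1 = true := by decide +kernel

theorem va_ok : isVec [(1, 0, 0, 0, 0)] [2, 0, 0, 0, 0, 0, 0] va = true := by decide +kernel

theorem vaa_ok : isVec [(1, 0, 0, 0, 0)] [2, 2, 0, 0, 0, 0] vaa = true := by decide +kernel

def ppsi : Po := tmul 200 (0, 0, 0, 0) (pmul m3 (pmul (sym 0) (sym 0)))
  (tmul (-540) (0, 0, 0, 0) (pmul (sym 2) (pmul (sym 2) (sym 0)))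
  (tmul (-20) (0, 0, 0, 0) (pmul (sym 3) (sym 0)) (tmul 22 (0, 0, 0, 0) (pmul (sym 2) m3) [])))

theorem vpsi_ok : isVec ppsi [0, 0, 0] vpsi = true := by decide +kernel

def cI (k : List ℤ) (vF : List ℤ) (fs : List Fac) (ws : List Wac)
    (t1 t4 : List (ℕ × List ℤ × List (ℕ × ℕ))) : Bool :=
  isZ (mad (mP1 k TH) (mad [[], vF] (mad (mT1 (fs.map Fac.v) t1)
    (mT4 (ws.map Wac.v0) (ws.map Wac.vQ) t4))))

def cII (k : List ℤ) (M : List (List ℤ)) (fs : List Fac) (t0 : List (ℕ × List (ℕ × ℕ))) : Bool :=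
  isZ (mad (mP2 k TH) (mad M (mT0 (vpsi :: fs.map Fac.v) t0)))

end Vale.Agent.P154.Q4
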