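import Vale.Agent.P154.RP01
import Vale.Agent.P154.RP02
import Vale.Agent.P154.RP03
import Vale.Agent.P154.RP04
import Vale.Agent.P154.RP05
import Vale.Agent.P154.RP06
import Vale.Agent.P154.RP07
import Vale.Agent.P154.RP08
import Vale.Agent.P154.RP09
import Vale.Agent.P154.RP10
import Vale.Agent.P154.RP11
import Vale.Agent.P154.RP12
import Vale.Agent.P154.RP13
import Vale.Agent.P154.RP14
import Vale.Agent.P154.RP15
import Vale.Agent.P154.RP16
import Vale.Agent.P154.RP17
import Vale.Agent.P154.RP18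
import Vale.Agent.P154.RP19
import Vale.Agent.P154.RP20
import Vale.Agent.P154.RP21
import Vale.Agent.P154.RP22
import Vale.Agent.P154.RP23
import Vale.Agent.P154.RP24
import Vale.Agent.P154.RP25
import Vale.Agent.P154.RP26
import Vale.Agent.P154.RP27
import Vale.Agent.P154.RP28
import Vale.Agent.P154.RP29
import Vale.Agent.P154.RP30
import Vale.Agent.P154.RP31
import Vale.Agent.P154.RP32
import Vale.Agent.P154.RR04
import Vale.Agent.P154.RR05
import Vale.Agent.P154.RR06
import Vale.Agent.P154.RR07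
import Vale.Agent.P154.RR08
import Vale.Agent.P154.RR09
import Vale.Agent.P154.RR10
import Vale.Agent.P154.RR11
import Vale.Agent.P154.RR12
import Vale.Agent.P154.RR13
import Vale.Agent.P154.RR14
import Vale.Agent.P154.RR15
import Vale.Agent.P154.RR16
import Vale.Agent.P154.RR17
import Vale.Agent.P154.RR18
import Vale.Agent.P154.RR19
import Vale.Agent.P154.RR20

namespace Vale.Agent.P154.DE

open Vale.Agent.P154

theorem allReg {j0 : -1 / 2 ≤ -(1 / 2 : ℝ)} {j1 : -(1 / 2 : ℝ) ≤ 1} (kJ : KeyP (1 / 2) j0 j1 phi 6)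
    {m0 : -1 / 2 ≤ -(2 / 5 : ℝ)} {m1 : -(2 / 5 : ℝ) ≤ 1} (kM : KeyP (2 / 5) m0 m1 phi 11)
    {l0 : -1 / 2 ≤ -(1 / 3 : ℝ)} {l1 : -(1 / 3 : ℝ) ≤ 1} (kL : KeyP (1 / 3) l0 l1 phi 17) :
    RegOK 4 20 := by
  have h0 := RR04.ok kJ (by norm_num) le_rfl (by norm_num)
  have h1 := h0.trans (RR05.ok kJ (by norm_num) le_rfl (by norm_num)) le_rfl
  have h2 := h1.trans (RR06.ok kJ (by norm_num) le_rfl (by norm_num)) le_rfl
  have h3 := h2.trans (RR07.ok kM (by norm_num) le_rfl (by norm_num)) le_rfl
  have h4 := h3.trans (RR08.ok kM (by norm_num) le_rfl (by norm_num)) le_rfl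
  have h5 := h4.trans (RR09.ok kL (by norm_num) le_rfl (by norm_num)) le_rfl
  have h6 := h5.trans (RR10.ok kL (by norm_num) le_rfl (by norm_num)) le_rfl
  have h7 := h6.trans (RR11.ok kL (by norm_num) le_rfl (by norm_num)) le_rfl
  have h8 := h7.trans (RR12.ok kL (by norm_num) le_rfl (by norm_num)) le_rfl
  have h9 := h8.trans (RR13.ok kL (by norm_num) le_rfl (by norm_num)) le_rfl
  have h10 := h9.trans (RR14.ok kL (by norm_num) le_rfl (by norm_num)) le_rfl
  have h11 := h10.trans (RR15.ok kL (by norm_num) le_rfl (by norm_num)) le_rfl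
  have h12 := h11.trans (RR16.ok kL (by norm_num) le_rfl (by norm_num)) le_rfl
  have h13 := h12.trans (RR17.ok kL (by norm_num) le_rfl (by norm_num)) le_rfl
  have h14 := h13.trans (RR18.ok kL (by norm_num) le_rfl (by norm_num)) le_rfl
  have h15 := h14.trans (RR19.ok kL (by norm_num) le_rfl (by norm_num)) le_rfl
  have h16 := h15.trans (RR20.ok kL (by norm_num) le_rfl (by norm_num)) le_rfl
  exact h16

theorem allPoi {j0 : -1 / 2 ≤ -(1 / 2 : ℝ)} {j1 : -(1 / 2 : ℝ) ≤ 1} (kJ : KeyP (1 / 2) j0 j1 phi 6)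
    {m0 : -1 / 2 ≤ -(2 / 5 : ℝ)} {m1 : -(2 / 5 : ℝ) ≤ 1} (kM : KeyP (2 / 5) m0 m1 phi 11)
    {l0 : -1 / 2 ≤ -(1 / 3 : ℝ)} {l1 : -(1 / 3 : ℝ) ≤ 1} (kL : KeyP (1 / 3) l0 l1 phi 17) :
    PoiOK 4 (81 / 4) := by
  have h0 := RP01.ok kJ (by norm_num) le_rfl (by norm_num)
  have h1 := h0.trans (RP02.ok kJ (by norm_num) le_rfl (by norm_num)) (by norm_num)
  have h2 := h1.trans (RP03.ok kJ (by norm_num) le_rfl (by norm_num)) (by norm_num)
  have h3 := h2.trans (RP04.ok kJ (by norm_num) le_rfl (by norm_num)) (by norm_num)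
  have h4 := h3.trans (RP05.ok kJ (by norm_num) le_rfl (by norm_num)) (by norm_num)
  have h5 := h4.trans (RP06.ok kJ (by norm_num) le_rfl (by norm_num)) (by norm_num)
  have h6 := h5.trans (RP07.ok kJ (by norm_num) le_rfl (by norm_num)) (by norm_num)
  have h7 := h6.trans (RP08.ok kJ (by norm_num) le_rfl (by norm_num)) (by norm_num)
  have h8 := h7.trans (RP09.ok kJ (by norm_num) le_rfl (by norm_num)) (by norm_num)
  have h9 := h8.trans (RP10.ok kJ (by norm_num) le_rfl (by norm_num)) (by norm_num)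
  have h10 := h9.trans (RP11.ok kJ (by norm_num) le_rfl (by norm_num)) (by norm_num)
  have h11 := h10.trans (RP12.ok kJ (by norm_num) le_rfl (by norm_num)) (by norm_num)
  have h12 := h11.trans (RP13.ok kJ (by norm_num) le_rfl (by norm_num)) (by norm_num)
  have h13 := h12.trans (RP14.ok kJ (by norm_num) le_rfl (by norm_num)) (by norm_num)
  have h14 := h13.trans (RP15.ok kJ (by norm_num) le_rfl (by norm_num)) (by norm_num)
  have h15 := h14.trans (RP16.ok kJ (by norm_num) le_rfl (by norm_num)) (by norm_num)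
  have h16 := h15.trans (RP17.ok kM (by norm_num) le_rfl (by norm_num)) (by norm_num)
  have h17 := h16.trans (RP18.ok kM (by norm_num) le_rfl (by norm_num)) (by norm_num)
  have h18 := h17.trans (RP19.ok kM (by norm_num) le_rfl (by norm_num)) (by norm_num)
  have h19 := h18.trans (RP20.ok kM (by norm_num) le_rfl (by norm_num)) (by norm_num)
  have h20 := h19.trans (RP21.ok kM (by norm_num) le_rfl (by norm_num)) (by norm_num)
  have h21 := h20.trans (RP22.ok kM (by norm_num) le_rfl (by norm_num)) (by norm_num)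
  have h22 := h21.trans (RP23.ok kM (by norm_num) le_rfl (by norm_num)) (by norm_num)
  have h23 := h22.trans (RP24.ok kL (by norm_num) le_rfl (by norm_num)) (by norm_num)
  have h24 := h23.trans (RP25.ok kL (by norm_num) le_rfl (by norm_num)) (by norm_num)
  have h25 := h24.trans (RP26.ok kL (by norm_num) le_rfl (by norm_num)) (by norm_num)
  have h26 := h25.trans (RP27.ok kL (by norm_num) le_rfl (by norm_num)) (by norm_num)
  have h27 := h26.trans (RP28.ok kL (by norm_num) le_rfl (by norm_num)) (by norm_num)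
  have h28 := h27.trans (RP29.ok kL (by norm_num) le_rfl (by norm_num)) (by norm_num)
  have h29 := h28.trans (RP30.ok kL (by norm_num) le_rfl (by norm_num)) (by norm_num)
  have h30 := h29.trans (RP31.ok kL (by norm_num) le_rfl (by norm_num)) (by norm_num)
  have h31 := h30.trans (RP32.ok kL (by norm_num) le_rfl (by norm_num)) (by norm_num)
  exact h31.mono (by norm_num) (by norm_num)

end Vale.Agent.P154.DE
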